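import Vale.Agent.P188.Fibre

open Vale.Agent.P188

universe u v w

theorem Vale.Agent.Results.P188.FibrewiseReduction.result
    {H : Type u} {G : Type v} {Q : Type w} [Group H] [Group G] [Group Q]
    (S : Finset H) (T : Finset G)
    (hS : Subgroup.closure (S : Set H) = ⊤) (hT : Subgroup.closure (T : Set G) = ⊤)
    (hG : IsVirtuallyPolycyclic G)
    (K C : ℝ) (F : H → G)
    (hF : IsQuasiIsometry (wordDist (S : Set H)) (wordDist (T : Set G)) K C F)
    (ψ : G →* Q) (hψ : Function.Surjective ψ) (χ : H →* Q)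
    (B : Finset Q) (hcomp : ∀ x : H, (χ x)⁻¹ * ψ (F x) ∈ B) :
    χ.ker.FG ∧ QuasiIsometricGroups χ.ker ψ.ker ∧
      ((∀ (Γ : Type u) [Group Γ], QuasiIsometricGroups Γ ψ.ker → IsVirtuallyPolycyclic Γ) →
        IsVirtuallyPolycyclic H) :=
  fibre_theorem hS S.finite_toSet hT T.finite_toSet hG hF ψ hψ χ (B : Set Q) B.finite_toSet
    (fun x => by exact_mod_cast hcomp x)
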